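import Vale.Agent.P181.H382.Defs
import Vale.Agent.P181.DX.H556.Sec
import Vale.Agent.P181.MD.H514.DefsD
import Vale.Agent.P181.TL.H850.Join
import Vale.Agent.P181.TL.H410.T9E

set_option autoImplicit false

/-!
# P181, LL [L8]: the union `NearAll`

`FatLog` fails: `∑ min (b, λ_i) ≤ V b` with `V` polylogarithmic, so `D_j ≤ V max (b, λ_j)`.
-/

namespace Vale.Agent.P181.H382.H640

open Filter
open Vale.Agent.P181.H280 (plethMult)
open Vale.Agent.P181.T4 (ex)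
open Vale.Agent.P181.PL
open Vale.Agent.P181.TL (dn2)
open Vale.Agent.P181.DX.H556 (UniY FatLog)
open Vale.Agent.P181.MD.H514 (ThirdLongD)

/-- polylogarithms are small powers -/
lemma plog (C : ℝ) (c : ℕ) {ε : ℝ} (hε : 0 < ε) :
    ∃ a₀ : ℕ, ∀ a : ℕ, a₀ ≤ a → C * (1 + Real.log a) ^ c ≤ (a : ℝ) ^ ε := by
  have hM : (0 : ℝ) < (|C| + 1) * 2 ^ c := by positivity
  have h1 := (isLittleO_log_rpow_rpow_atTop (c : ℝ) hε).bound (c := 1 / ((|C| + 1) * 2 ^ c))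
    (by positivity)
  have h2 := tendsto_natCast_atTop_atTop (R := ℝ) |>.eventually h1
  have h5 : ∀ᶠ a : ℕ in atTop, C * (1 + Real.log a) ^ c ≤ (a : ℝ) ^ ε := by
    filter_upwards [h2, eventually_ge_atTop 3] with a ha h3
    have h3R : (3 : ℝ) ≤ a := by exact_mod_cast h3
    have ha0 : (0 : ℝ) < a := by linarith
    have hlog : 1 ≤ Real.log a := by
      rw [Real.le_log_iff_exp_le ha0]
      have := Real.exp_one_lt_d9
      linarith
    have e1 : ‖Real.log (a : ℝ) ^ (c : ℝ)‖ = Real.log a ^ c := by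
      rw [Real.rpow_natCast, Real.norm_of_nonneg (by positivity)]
    have e2 : ‖(a : ℝ) ^ ε‖ = (a : ℝ) ^ ε := Real.norm_of_nonneg (by positivity)
    rw [e1, e2, one_div, inv_mul_eq_div, le_div_iff₀ hM] at ha
    calc C * (1 + Real.log a) ^ c ≤ |C| * (1 + Real.log a) ^ c :=
          mul_le_mul_of_nonneg_right (le_abs_self C) (by positivity)
      _ ≤ (|C| + 1) * (2 * Real.log a) ^ c := by
          apply mul_le_mul (by linarith) _ (by positivity) (by positivity)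
          exact pow_le_pow_left₀ (by positivity) (by linarith) c
      _ = Real.log a ^ c * ((|C| + 1) * 2 ^ c) := by
          rw [mul_pow]
          ring
      _ ≤ _ := ha
  obtain ⟨a₀, h⟩ := eventually_atTop.1 h5
  exact ⟨a₀, fun a ha => h a ha⟩

/-- the boxes in the rows `≥ j` against `max b λ_j` -/
lemma dn_le_max {b n : ℕ} (hb : 0 < b) {lam : Fin n → ℕ} (hanti : Antitone lam) {V : ℝ} (j : ℕ)
    (h : ∑ i, ((min b (lam i) : ℕ) : ℝ) ≤ V * b) :
    (dn lam j : ℝ) ≤ V * max (b : ℝ) (ex lam j) := by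
  have hbR : (0 : ℝ) < b := by exact_mod_cast hb
  have hm : (0 : ℝ) < max (b : ℝ) (ex lam j) := lt_max_of_lt_left hbR
  have h1 : (dn lam j : ℝ) * b ≤ max (b : ℝ) (ex lam j) * ∑ i, ((min b (lam i) : ℕ) : ℝ) := by
    unfold dn
    push_cast
    rw [Finset.sum_mul, Finset.mul_sum]
    apply Finset.sum_le_sum
    intro i _
    by_cases hi : j ≤ (i : ℕ)
    · rw [if_pos hi]
      have h2 : (lam i : ℝ) ≤ ex lam j := by
        rw [← exfin lam i]
        exact_mod_cast exanti hanti hi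
      have h0 : (0 : ℝ) ≤ lam i := Nat.cast_nonneg _
      rcases le_total (b : ℝ) (lam i) with h3 | h3
      · rw [min_eq_left h3]
        exact mul_le_mul_of_nonneg_right (h2.trans (le_max_right _ _)) hbR.le
      · rw [min_eq_right h3, mul_comm]
        exact mul_le_mul_of_nonneg_right (le_max_left _ _) h0
    · rw [if_neg hi, zero_mul]
      positivity
  have h2 : (dn lam j : ℝ) * b ≤ V * max (b : ℝ) (ex lam j) * b := by
    calc (dn lam j : ℝ) * b ≤ max (b : ℝ) (ex lam j) * ∑ i, ((min b (lam i) : ℕ) : ℝ) := h1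
      _ ≤ max (b : ℝ) (ex lam j) * (V * b) := mul_le_mul_of_nonneg_left h hm.le
      _ = V * max (b : ℝ) (ex lam j) * b := by ring
  exact le_of_mul_le_mul_right h2 hbR

lemma small {CP C L a A b D : ℝ} {cP c : ℕ} (hCP : 0 ≤ CP) (hL : 1 ≤ L) (ha : 0 < a)
    (haA : a ≤ A) (hC : CP * A ≤ C) (hc : cP ≤ c) (hD : C * L ^ c * a ≤ D) (hDb : D ≤ a * b) :
    CP * a * L ^ cP ≤ b := by
  have h2 : C * L ^ c ≤ b := by
    have h3 : (C * L ^ c) * a ≤ b * a := by linarith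
    exact le_of_mul_le_mul_right h3 ha
  have h5 : CP * a ≤ C := (mul_le_mul_of_nonneg_left haA hCP).trans hC
  have h6 : L ^ cP ≤ L ^ c := pow_le_pow_right₀ hL hc
  have h7 : 0 ≤ C := le_trans (by positivity) h5
  have h8 : 0 ≤ L ^ cP := by positivity
  exact (mul_le_mul h5 h6 h8 h7).trans h2

lemma fat {CF δ L b a S : ℝ} {cF : ℕ} (hδ : 0 < δ) (hb : 0 < b) (hab : (1 + δ) * a ≤ b)
    (hS : 0 ≤ S) (h : (b - a) * S < CF * L ^ cF * b ^ 2) :
    S ≤ CF * ((1 + δ) / δ) * L ^ cF * b := by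
  have h1 : δ / (1 + δ) * b ≤ b - a := by
    rw [div_mul_eq_mul_div, div_le_iff₀ (by linarith)]
    nlinarith
  have h3 : δ / (1 + δ) * b * S ≤ CF * L ^ cF * b ^ 2 :=
    (mul_le_mul_of_nonneg_right h1 hS).trans h.le
  have h4 : (0 : ℝ) < δ / (1 + δ) * b := by positivity
  refine le_of_mul_le_mul_left (h3.trans (le_of_eq ?_)) h4
  field_simp

lemma vb {W CP K L a b : ℝ} {cF cP k : ℕ} (hW : 0 < W) (hK : 0 < K) (hL : 0 < L) (ha : 0 ≤ a)
    (h : 2 * (W * CP * K) * L ^ (cF + cP + k) ≤ a) (hb : b < CP * a * L ^ cP) :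
    2 * (W * L ^ cF * b) * (K * L ^ k) ≤ a ^ 2 := by
  have h1 : 0 ≤ 2 * (W * L ^ cF) * (K * L ^ k) := by positivity
  calc 2 * (W * L ^ cF * b) * (K * L ^ k) = 2 * (W * L ^ cF) * (K * L ^ k) * b := by ring
    _ ≤ 2 * (W * L ^ cF) * (K * L ^ k) * (CP * a * L ^ cP) := mul_le_mul_of_nonneg_left hb.le h1
    _ = (2 * (W * CP * K) * L ^ (cF + cP + k)) * a := by ring
    _ ≤ a * a := mul_le_mul_of_nonneg_right h ha
    _ = a ^ 2 := by ring

lemma big {V b D K a x : ℝ} (hK : 0 < K) (ha : 0 < a)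
    (hd : D ≤ V * max b x) (h1 : 2 * (V * b) * K ≤ a ^ 2) (h2 : a ^ 2 < K * D) : D ≤ V * x := by
  rcases le_total b x with h3 | h3
  · rw [max_eq_right h3] at hd
    exact hd
  · rw [max_eq_left h3] at hd
    exfalso
    have h4 : K * D ≤ K * (V * b) := mul_le_mul_of_nonneg_left hd hK.le
    have h5 : 0 < a ^ 2 := by positivity
    nlinarith

lemma third {V D K a x : ℝ} (hK : 0 < K) (ha : 0 < a) (hx : 0 ≤ x) (hd : D ≤ V * x)
    (h2 : a ^ 2 < K * D) (h3 : K * V ≤ a ^ (1 / 3 : ℝ)) : a ^ (5 / 3 : ℝ) ≤ x := by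
  have h4 : a ^ 2 = a ^ (5 / 3 : ℝ) * a ^ (1 / 3 : ℝ) := by
    rw [← Real.rpow_add ha, ← Real.rpow_natCast]
    norm_num
  have h5 : a ^ (5 / 3 : ℝ) * a ^ (1 / 3 : ℝ) ≤ x * a ^ (1 / 3 : ℝ) := by
    rw [← h4]
    calc a ^ 2 ≤ K * D := h2.le
      _ ≤ K * (V * x) := mul_le_mul_of_nonneg_left hd hK.le
      _ = (K * V) * x := by ring
      _ ≤ a ^ (1 / 3 : ℝ) * x := mul_le_mul_of_nonneg_right h3 hx
      _ = x * a ^ (1 / 3 : ℝ) := by ring
  exact le_of_mul_le_mul_right h5 (Real.rpow_pos_of_pos ha _)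

lemma scale {X Y C₀ C K L a : ℝ} {k c : ℕ} (hL : 1 ≤ L) (hC : 0 ≤ C) (hCK : C ≤ C₀) (hkc : k ≤ c)
    (ha : 0 ≤ a) (h : X ≤ C * L ^ k * a) (hK : K = C₀ * L ^ c) (hY : Y = K * a) : X ≤ Y := by
  rw [hY, hK]
  refine h.trans (mul_le_mul_of_nonneg_right ?_ ha)
  exact mul_le_mul hCK (pow_le_pow_right₀ hL hkc) (by positivity) (hC.trans hCK)

/-- **(L8)** -/
theorem nearAll (hN : TwoLongN) (hT : ThirdLongD) (hF : FatLog) (hU : UniY) (hP : PolyS) :
    NearAll := by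
  intro δ hδ
  obtain ⟨CP, cP, hCP, hP⟩ := hP
  obtain ⟨CF, cF, hCF, hF⟩ := hF
  obtain ⟨CU, cU, hCU, hU⟩ := hU
  obtain ⟨a3, hT⟩ := hT δ hδ
  obtain ⟨W, hW⟩ : ∃ W : ℝ, W = CF * ((1 + δ) / δ) := ⟨_, rfl⟩
  have hW0 : 0 < W := by rw [hW]; positivity
  have hCU0 : 0 < CU := by linarith
  obtain ⟨C₀, hC₀⟩ : ∃ C₀ : ℝ, C₀ = CP + CU * W := ⟨_, rfl⟩
  have hCPC : CP ≤ C₀ := by
    rw [hC₀]
    have : 0 ≤ CU * W := by positivity
    linarith
  have hCUC : CU * W ≤ C₀ := by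
    rw [hC₀]
    linarith
  obtain ⟨C7, c7, hC7, hN⟩ := hN δ C₀ (cP + (cU + cF)) hδ (by linarith)
  obtain ⟨a1, ha1⟩ := TL.H410.ev_log (2 * (W * CP * CU)) (cF + cP + cU)
  obtain ⟨a2, ha2⟩ := TL.H410.ev_log (2 * (W * CP * C7)) (cF + cP + c7)
  obtain ⟨a4, ha4⟩ := plog (C7 * W) (c7 + cF) (ε := 1 / 3) (by norm_num)
  obtain ⟨A, hA⟩ : ∃ A : ℕ, A = a1 + a2 + a3 + a4 + ⌈C7⌉₊ + 1 := ⟨_, rfl⟩
  refine ⟨CP * A + C7 + CU, cP + c7 + cU, by positivity, ?_⟩
  intro a b hab n lam hD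
  obtain ⟨C, hC⟩ : ∃ C : ℝ, C = CP * A + C7 + CU := ⟨_, rfl⟩
  obtain ⟨c, hc⟩ : ∃ c : ℕ, c = cP + c7 + cU := ⟨_, rfl⟩
  rw [← hC, ← hc] at hD
  have hA0 : (0 : ℝ) ≤ CP * A := by positivity
  have hCA : CP * A ≤ C := by rw [hC]; linarith
  have hC7C : C7 ≤ C := by rw [hC]; linarith
  have hC1 : 1 ≤ C := by rw [hC]; linarith
  obtain ⟨L, hLe⟩ : ∃ L : ℝ, L = 1 + Real.log a := ⟨_, rfl⟩
  have hL1 : 1 ≤ L := by
    rw [hLe]
    linarith [Real.log_natCast_nonneg a]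
  have hL0 : 0 < L := by linarith
  have ha0 : (0 : ℝ) ≤ a := Nat.cast_nonneg a
  by_cases hpoly : CP * a * (1 + Real.log a) ^ cP ≤ b
  · exact hP a b hpoly n lam
  by_cases hz : plethMult a b n lam = 0
  · rw [hz]
    exact Nat.zero_le _
  obtain ⟨hanti, hsum, -⟩ := H530.zero_stmt a b n lam hz
  have habR : (a : ℝ) ≤ b := by
    have : 0 ≤ δ * a := by positivity
    linarith
  have habN : a ≤ b := by exact_mod_cast habR
  rw [← hLe] at hpoly hD
  push Not at hpoly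
  have ha : 0 < a := by
    rcases Nat.eq_zero_or_pos a with h | h
    · rw [h, Nat.cast_zero, mul_zero, zero_mul] at hpoly
      exact absurd hpoly (not_lt.2 (Nat.cast_nonneg b))
    · exact h
  have haR : (0 : ℝ) < a := by exact_mod_cast ha
  have hbR : (0 : ℝ) < b := by linarith
  have hb : 0 < b := by omega
  have hD2 : (dn lam 2 : ℝ) ≤ a * b := by
    have h1 : dn lam 2 ≤ dn lam 0 := dn_anti lam (by omega)
    rw [dn_zero, hsum] at h1
    exact_mod_cast h1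
  -- `a` is large
  have hAa : A < a := by
    by_contra hcon
    push Not at hcon
    have h1 : (a : ℝ) ≤ A := by exact_mod_cast hcon
    exact absurd hpoly (not_lt.2
      (small hCP.le hL1 haR h1 hCA (by omega : cP ≤ c) hD hD2))
  -- FatLog
  by_cases hfat : CF * (1 + Real.log a) ^ cF * (b : ℝ) ^ 2 ≤
      ((b : ℝ) - a) * ∑ i, ((min b (lam i) : ℕ) : ℝ)
  · exact hF a b n lam habN hfat
  rw [← hLe] at hfat
  push Not at hfat
  have hS0 : 0 ≤ ∑ i, ((min b (lam i) : ℕ) : ℝ) :=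
    Finset.sum_nonneg fun i _ => Nat.cast_nonneg _
  have hfat2 := fat hδ hbR hab hS0 hfat
  rw [← hW] at hfat2
  have hw := dn_le_max hb hanti 1 hfat2
  have hd := dn_le_max hb hanti 2 hfat2
  -- `V b` is small
  have h1 := ha1 a (by omega)
  have h2 := ha2 a (by omega)
  have h3 := ha4 a (by omega)
  rw [← hLe] at h1 h2 h3
  have hVb1 := vb hW0 hCU0 hL0 ha0 h1 hpoly
  have hVb2 := vb hW0 hC7 hL0 ha0 h2 hpoly
  have hLU : 0 < CU * L ^ cU := by positivity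
  have hL7 : 0 < C7 * L ^ c7 := by positivity
  clear h1 h2 ha1 ha2 ha4 hfat hfat2 hS0
  -- UniY
  by_cases hwa : CU * L ^ cU * (dn lam 1 : ℝ) ≤ (a : ℝ) ^ 2
  · apply hU a b habN n lam
    right; right; right
    rw [← hLe]
    refine ⟨hwa.trans (pow_le_pow_left₀ ha0 habR 2), hwa.trans (pow_le_pow_left₀ ha0 ?_ 2)⟩
    refine le_trans ?_ hD
    have h4 : 1 ≤ L ^ c := one_le_pow₀ hL1
    have h5 : 1 ≤ C * L ^ c := one_le_mul_of_one_le_of_one_le hC1 h4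
    exact le_mul_of_one_le_left ha0 h5
  push Not at hwa
  -- ThirdLongD
  by_cases hda : C7 * L ^ c7 * (dn lam 2 : ℝ) ≤ (a : ℝ) ^ 2
  swap
  · push Not at hda
    apply hT a b n lam (by omega) hab
    refine third hL7 haR (Nat.cast_nonneg _) (big hL7 haR hd hVb2 hda) hda (le_trans ?_ h3)
    exact le_of_eq (by ring)
  -- TwoLongN
  have h4 := big hLU haR hw hVb1 hwa
  have hD' : C7 * L ^ c7 * a ≤ (dn lam 2 : ℝ) := by
    refine le_trans (mul_le_mul_of_nonneg_right ?_ ha0) hD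
    exact mul_le_mul hC7C (pow_le_pow_right₀ hL1 (by omega)) (by positivity) (by linarith)
  have hn3 : 3 ≤ n := by
    by_contra hcon
    rw [dn_ge lam (by omega), Nat.cast_zero] at hD'
    have : 0 < C7 * L ^ c7 * a := by positivity
    linarith
  obtain ⟨k, rfl⟩ := Nat.exists_eq_add_of_le' hn3
  have e2 : dn lam 2 = dn2 (k := k + 1) lam := TL.H850.dn_two (k := k + 1) lam
  have e1 : ex lam 1 = lam 1 := exlt lam (by omega)
  refine hN a b k lam hanti hsum ?_ hab ?_ ?_ ?_ ?_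
  · have h5 : (⌈C7⌉₊ : ℝ) ≤ a := by exact_mod_cast (by omega : ⌈C7⌉₊ ≤ a)
    exact (Nat.le_ceil C7).trans h5
  · rw [← hLe]
    exact scale hL1 hCP.le hCPC (Nat.le_add_right _ _) ha0
      (hpoly.le.trans (le_of_eq (by ring))) rfl rfl
  · rw [← hLe, ← e1]
    refine scale (C := CU * W) hL1 (by positivity) hCUC (Nat.le_add_left _ _)
      (Nat.cast_nonneg (ex lam 1)) ?_ rfl rfl
    calc (a : ℝ) ^ 2 ≤ CU * L ^ cU * (dn lam 1 : ℝ) := hwa.le
      _ ≤ CU * L ^ cU * (W * L ^ cF * ex lam 1) := mul_le_mul_of_nonneg_left h4 hLU.le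
      _ = CU * W * L ^ (cU + cF) * ex lam 1 := by ring
  · rw [← hLe, ← e2]
    exact hD'
  · rw [← hLe, ← e2]
    exact hda

end Vale.Agent.P181.H382.H640
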