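import Vale.Agent.P181.H382.H112.DefsU
import Vale.Agent.P181.DX.H556.SecA
import Vale.Agent.P181.RV.H627.UDefs
import Vale.Agent.P181.TL.H850.Join
import Vale.Agent.P181.TL.H410.T9E

set_option autoImplicit false

/-!
# P181, LSU [U5]: the final form `RhoU` from `RhoP`, `NearV`, `UniAll`, `PolyS`
-/

namespace Vale.Agent.P181.H382.H640

open Vale.Agent.P181.H280 (plethMult)
open Vale.Agent.P181.PL
open Vale.Agent.P181.TL (dn2)
open Vale.Agent.P181.DX.H556 (UniAll)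
open Vale.Agent.P181.RV (NearV)
open Vale.Agent.P181.H382.H112 (RhoP RhoU)

lemma half_log_two : (1 / 2 : ℝ) ≤ Real.log 2 := by
  have := Real.log_two_gt_d9
  linarith

lemma half_le_xlog {x : ℝ} (hx : 1 ≤ x) : (1 / 2 : ℝ) ≤ x * Real.log (2 * x) := by
  have h1 : Real.log 2 ≤ Real.log (2 * x) := Real.log_le_log (by norm_num) (by linarith)
  have h2 := half_log_two
  nlinarith

/-- the condition of `NearV` -/
lemma num_near {Q C2 x l : ℝ} (hC2 : 0 < C2) (hx : 1 ≤ x) (hQ1 : 2 * C2 ≤ Q)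
    (hQ2 : 2 * (4 * C2 + 4) ^ 4 ≤ Q) (h : Q * (x * Real.log (2 * x)) ≤ l) :
    C2 * x * Real.log (2 + l) ≤ l := by
  have h1 := half_le_xlog hx
  have hQ0 : 0 < Q := by linarith
  have h2 : (4 * C2 + 4) ^ 4 ≤ l := by
    have h3 : Q * (1 / 2) ≤ Q * (x * Real.log (2 * x)) := mul_le_mul_of_nonneg_left h1 hQ0.le
    linarith
  have hl0 : 0 ≤ l := le_trans (by positivity) h2
  obtain ⟨r, hr⟩ : ∃ r : ℝ, r = Real.sqrt (Real.sqrt l) := ⟨_, rfl⟩
  have hr0 : 0 ≤ r := by rw [hr]; exact Real.sqrt_nonneg _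
  have hr2 : r ^ 2 = Real.sqrt l := by
    rw [hr]
    exact Real.sq_sqrt (Real.sqrt_nonneg _)
  have hr4 : r ^ 4 = l := by
    have : r ^ 4 = (r ^ 2) ^ 2 := by ring
    rw [this, hr2]
    exact Real.sq_sqrt hl0
  have hrC : 4 * C2 + 4 ≤ r := by
    by_contra hcon
    push Not at hcon
    have h3 : r ^ 4 < (4 * C2 + 4) ^ 4 := pow_lt_pow_left₀ hcon hr0 (by norm_num)
    linarith
  have hr1 : 1 ≤ r := by linarith
  rcases le_total x (r ^ 2) with hxr | hxr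
  · have h3 : Real.log (2 + l) ≤ 4 * (1 + r) := by
      have h4 : 2 + l ≤ (2 + r) ^ 4 := by
        rw [← hr4]
        have : 0 ≤ r ^ 3 := by positivity
        have : 0 ≤ r ^ 2 := by positivity
        nlinarith
      have h5 : Real.log (2 + l) ≤ Real.log ((2 + r) ^ 4) :=
        Real.log_le_log (by linarith) h4
      rw [Real.log_pow] at h5
      have h6 : Real.log (2 + r) ≤ 2 + r - 1 := Real.log_le_sub_one_of_pos (by linarith)
      push_cast at h5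
      linarith
    have h4 : 0 ≤ Real.log (2 + l) := Real.log_nonneg (by linarith)
    calc C2 * x * Real.log (2 + l) ≤ C2 * r ^ 2 * (4 * (1 + r)) := by
          apply mul_le_mul _ h3 h4 (by positivity)
          exact mul_le_mul_of_nonneg_left hxr hC2.le
      _ = r ^ 2 * (4 * C2 * (1 + r)) := by ring
      _ ≤ r ^ 2 * r ^ 2 := by
          apply mul_le_mul_of_nonneg_left _ (by positivity)
          nlinarith
      _ = l := by rw [← hr4]; ring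
  · have h3 : Real.log (2 + l) ≤ 2 * Real.log (2 * x) := by
      have h4 : 2 * Real.log (2 * x) = Real.log ((2 * x) ^ 2) := by
        rw [Real.log_pow]
        norm_num
      rw [h4]
      apply Real.log_le_log (by linarith)
      have h5 : 0 ≤ r ^ 2 := by positivity
      have h6 : l ≤ x ^ 2 := by
        calc l = (r ^ 2) ^ 2 := by rw [← hr4]; ring
          _ ≤ x ^ 2 := pow_le_pow_left₀ h5 hxr 2
      nlinarith
    have h7 : 0 ≤ x * Real.log (2 * x) := by linarith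
    calc C2 * x * Real.log (2 + l) ≤ C2 * x * (2 * Real.log (2 * x)) := by
          apply mul_le_mul_of_nonneg_left h3 (by positivity)
      _ = 2 * C2 * (x * Real.log (2 * x)) := by ring
      _ ≤ Q * (x * Real.log (2 * x)) := mul_le_mul_of_nonneg_right hQ1 h7
      _ ≤ l := h

/-- the logarithm of `w D / b ^ 3` -/
lemma log_rho {a b w D : ℝ} (ha : 0 < a) (hb : 0 < b) (hab : a ≤ b) (hw0 : 0 ≤ w) (hD0 : 0 ≤ D)
    (hw : w ≤ a * b) (hD : D ≤ a * b) (h : 0 < Real.log (w * D / b ^ 3)) :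
    0 < w * D ∧ Real.log (w * D / b ^ 3) ≤ Real.log a := by
  have h1 : 0 < w * D := by
    rcases (mul_nonneg hw0 hD0).lt_or_eq with h2 | h2
    · exact h2
    · rw [← h2, zero_div, Real.log_zero] at h
      exact absurd h (lt_irrefl _)
  refine ⟨h1, Real.log_le_log (by positivity) ?_⟩
  rw [div_le_iff₀ (by positivity)]
  calc w * D ≤ (a * b) * (a * b) := mul_le_mul hw hD hD0 (by positivity)
    _ = a * (a * b ^ 2) := by ring
    _ ≤ a * (b * b ^ 2) := by gcongr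
    _ = a * b ^ 3 := by ring

/-- the last clause of `RhoP` -/
lemma num_rho {Q C1 b g w D x1 l2 : ℝ} (hb : 0 < b) (hgb : g ≤ b) (hg : 0 < g)
    (hQ : C1 + 1 ≤ Q) (hw : 0 < w * D) (hD : 0 ≤ D) (hl : w ≤ 2 * l2)
    (hx1 : Real.log 2 ≤ x1) (h : Q * b * x1 ≤ g * Real.log (w * D / b ^ 3)) :
    C1 * b * x1 ≤ g * Real.log (l2 * D / b ^ 3) := by
  have h0 := half_log_two
  have h1 : Real.log (w * D / b ^ 3) ≤ Real.log 2 + Real.log (l2 * D / b ^ 3) := by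
    have h2 : w * D ≤ 2 * (l2 * D) := by
      calc w * D ≤ (2 * l2) * D := mul_le_mul_of_nonneg_right hl hD
        _ = 2 * (l2 * D) := by ring
    have h3 : 0 < l2 * D := by linarith
    rw [← Real.log_mul (by norm_num) (by positivity)]
    apply Real.log_le_log (by positivity)
    rw [mul_div_assoc']
    exact div_le_div_of_nonneg_right h2 (by positivity)
  have h4 : g * Real.log (w * D / b ^ 3) ≤ g * (Real.log 2 + Real.log (l2 * D / b ^ 3)) :=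
    mul_le_mul_of_nonneg_left h1 hg.le
  have h5 : g * Real.log 2 ≤ b * x1 := mul_le_mul hgb hx1 (by linarith) hb.le
  have h6 : 0 ≤ b * x1 := by
    have : 0 ≤ x1 := by linarith
    positivity
  have h7 : (C1 + 1) * (b * x1) ≤ Q * (b * x1) := mul_le_mul_of_nonneg_right hQ h6
  nlinarith

/-- constants -/
lemma num_le {C M L : ℝ} {c m : ℕ} (hC : 0 ≤ C) (hCM : C ≤ M) (hcm : c ≤ m) (hL : 1 ≤ L) :
    C * L ^ c ≤ M * L ^ m :=
  mul_le_mul hCM (pow_le_pow_right₀ hL hcm) (by positivity) (hC.trans hCM)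

lemma x_le {Q x l : ℝ} (hx : 1 ≤ x) (hQ : 2 ≤ Q) (h : Q * (x * Real.log (2 * x)) ≤ l) :
    x ≤ l := by
  have h1 : Real.log 2 ≤ Real.log (2 * x) := Real.log_le_log (by norm_num) (by linarith)
  have h2 := half_log_two
  have h3 : x * (1 / 2) ≤ x * Real.log (2 * x) :=
    mul_le_mul_of_nonneg_left (by linarith) (by linarith)
  have h4 : 2 * (x * (1 / 2)) ≤ Q * (x * Real.log (2 * x)) :=
    mul_le_mul hQ h3 (by linarith) (by linarith)
  linarith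

lemma d_le {CU K L a2 w D : ℝ} {cU k1 : ℕ} (hL : 1 ≤ L) (hCU : 0 < CU) (hK : 2 * CU ≤ K)
    (hk : cU ≤ k1) (hD0 : 0 ≤ D) (hD : K * L ^ k1 * D < a2) (hw : a2 < CU * L ^ cU * w) :
    2 * D ≤ w := by
  have hLU : 0 < CU * L ^ cU := by positivity
  have h5 : 2 * (CU * L ^ cU) ≤ K * L ^ k1 := by
    calc 2 * (CU * L ^ cU) = (2 * CU) * L ^ cU := by ring
      _ ≤ K * L ^ k1 := num_le (by linarith) hK hk hL
  have h6 : (CU * L ^ cU) * (2 * D) ≤ (CU * L ^ cU) * w := by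
    calc (CU * L ^ cU) * (2 * D) = 2 * (CU * L ^ cU) * D := by ring
      _ ≤ K * L ^ k1 * D := mul_le_mul_of_nonneg_right h5 hD0
      _ ≤ (CU * L ^ cU) * w := (hD.trans hw).le
  exact le_of_mul_le_mul_left h6 hLU

lemma a_le {CU M L a2 w l2 : ℝ} {cU m : ℕ} (hL : 1 ≤ L) (hCU : 0 < CU) (hM : 2 * CU ≤ M)
    (hm : cU ≤ m) (hl0 : 0 ≤ l2) (hl : w ≤ 2 * l2) (hw : a2 < CU * L ^ cU * w) :
    a2 ≤ M * L ^ m * l2 := by
  have hLU : 0 < CU * L ^ cU := by positivity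
  have h5 : CU * L ^ cU * 2 ≤ M * L ^ m := by
    calc CU * L ^ cU * 2 = (2 * CU) * L ^ cU := by ring
      _ ≤ M * L ^ m := num_le (by linarith) hM hm hL
  calc a2 ≤ CU * L ^ cU * w := hw.le
    _ ≤ CU * L ^ cU * (2 * l2) := mul_le_mul_of_nonneg_left hl hLU.le
    _ = (CU * L ^ cU * 2) * l2 := by ring
    _ ≤ M * L ^ m * l2 := mul_le_mul_of_nonneg_right h5 hl0

lemma b_le {CP M L a b : ℝ} {cP m : ℕ} (hL : 1 ≤ L) (hCP : 0 ≤ CP) (hM : CP ≤ M)
    (hm : cP ≤ m) (ha : 0 ≤ a) (hb : b < CP * a * L ^ cP) : b ≤ M * L ^ m * a := by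
  have h5 : CP * L ^ cP ≤ M * L ^ m := num_le hCP hM hm hL
  calc b ≤ CP * a * L ^ cP := hb.le
    _ = (CP * L ^ cP) * a := by ring
    _ ≤ M * L ^ m * a := mul_le_mul_of_nonneg_right h5 ha

lemma g_le {M L b g x : ℝ} {m : ℕ} (hL : 1 ≤ L) (hM : 1 ≤ M) (hm : 1 ≤ m) (hg : 0 < g)
    (hx : x = b / g) (hxL : x ≤ L) : b ≤ M * L ^ m * g := by
  have h7 : 1 * L ^ 1 ≤ M * L ^ m := num_le zero_le_one hM hm hL
  have h8 : b = x * g := by
    rw [hx]
    field_simp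
  rw [h8]
  refine mul_le_mul_of_nonneg_right ?_ hg.le
  linarith

lemma c_le {C1 M K L a D : ℝ} {c1 m k1 : ℕ} (hL : 1 ≤ L) (hC1 : 0 ≤ C1) (hM : 0 ≤ M)
    (hK : C1 * M ^ c1 ≤ K) (hk : m * c1 ≤ k1) (hD0 : 0 ≤ D) (hD : K * L ^ k1 * D < a ^ 2) :
    C1 * (M * L ^ m) ^ c1 * D ≤ a ^ 2 := by
  have hpow : C1 * (M * L ^ m) ^ c1 = C1 * M ^ c1 * L ^ (m * c1) := by
    rw [mul_pow, ← pow_mul]
    ring
  rw [hpow]
  have h5 : C1 * M ^ c1 * L ^ (m * c1) ≤ K * L ^ k1 := num_le (by positivity) hK hk hL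
  exact (mul_le_mul_of_nonneg_right h5 hD0).trans hD.le

/-- The window: `RhoP` applies. -/
lemma window {CP CU C1 M K Q : ℝ} {cP cU c1 m k1 a1 : ℕ} (hCP : 0 < CP) (hCU : 1 ≤ CU)
    (hC1 : 1 ≤ C1)
    (hR : ∀ (a b k : ℕ) (lam : Fin (k + 3) → ℕ) (Λ : ℝ), Antitone lam → ∑ i, lam i = a * b →
      1 ≤ Λ → C1 * Λ ^ c1 ≤ a → a < b → (b : ℝ) ≤ Λ * a → (b : ℝ) ≤ Λ * (b - a) →
      (a : ℝ) ^ 2 ≤ Λ * lam 1 → C1 * Λ ^ c1 * dn2 lam ≤ (a : ℝ) ^ 2 →
      C1 * b * Real.log (2 * b / (b - a)) ≤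
        ((b : ℝ) - a) * Real.log ((lam 1 : ℝ) * dn2 lam / (b : ℝ) ^ 3) →
      plethMult a b (k + 3) lam ≤ plethMult b a (k + 3) lam)
    (hM1 : 1 ≤ M) (hMP : CP ≤ M) (hMU : 2 * CU ≤ M) (hmP : cP ≤ m) (hmU : cU ≤ m) (hm1 : 1 ≤ m)
    (hKU : 2 * CU ≤ K) (hK1 : C1 * M ^ c1 ≤ K) (hkU : cU ≤ k1) (hk1 : m * c1 ≤ k1)
    (ha1 : ∀ a : ℕ, a1 ≤ a → C1 * M ^ c1 * (1 + Real.log a) ^ (m * c1) ≤ a)
    (hQ3 : C1 + 1 ≤ Q)
    {a b n : ℕ} {lam : Fin n → ℕ} (hanti : Antitone lam) (hsum : ∑ i, lam i = a * b)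
    (haN : a1 ≤ a) (hab : a < b) {L g x : ℝ} (hLe : L = 1 + Real.log a) (hL1 : 1 ≤ L)
    (hg : g = (b : ℝ) - a) (hg0 : 0 < g) (hx : x = (b : ℝ) / g) (hx1 : 1 ≤ x)
    (hla : Q * (x * Real.log (2 * x)) ≤ Real.log a)
    (h : Q * b * Real.log (2 * x) ≤
      g * Real.log ((dn lam 1 : ℝ) * dn lam 2 / (b : ℝ) ^ 3))
    (hwD : 0 < (dn lam 1 : ℝ) * dn lam 2) (hpoly : (b : ℝ) < CP * a * L ^ cP)
    (huni : (b : ℝ) ^ 2 < CU * L ^ cU * (dn lam 1 : ℝ))
    (hnear : K * L ^ k1 * (dn lam 2 : ℝ) < (a : ℝ) ^ 2) :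
    plethMult a b n lam ≤ plethMult b a n lam := by
  have ha0 : (0 : ℝ) ≤ a := Nat.cast_nonneg a
  have habR : (a : ℝ) < b := by exact_mod_cast hab
  have hbR : (0 : ℝ) < b := by linarith
  have hgb : g ≤ b := by linarith
  have hCU0 : 0 < CU := by linarith
  have hD0 : 0 < dn lam 2 := by
    rcases Nat.eq_zero_or_pos (dn lam 2) with h5 | h5
    · rw [h5, Nat.cast_zero, mul_zero] at hwD
      exact absurd hwD (lt_irrefl _)
    · exact h5
  have hn3 : 3 ≤ n := by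
    by_contra hcon
    rw [dn_ge lam (by omega)] at hD0
    exact absurd hD0 (lt_irrefl _)
  have hex : dn lam 1 = T4.ex lam 1 + dn lam 2 := dn_succ lam 1
  have hexR : (dn lam 1 : ℝ) = (T4.ex lam 1 : ℝ) + dn lam 2 := by exact_mod_cast hex
  have haw : (a : ℝ) ^ 2 < CU * L ^ cU * (dn lam 1 : ℝ) :=
    lt_of_le_of_lt (pow_le_pow_left₀ ha0 habR.le 2) huni
  have hDw : 2 * (dn lam 2 : ℝ) ≤ dn lam 1 :=
    d_le hL1 hCU0 hKU hkU (Nat.cast_nonneg _) hnear haw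
  have hl2 : (dn lam 1 : ℝ) ≤ 2 * (T4.ex lam 1 : ℝ) := by linarith
  have hlog2 : Real.log 2 ≤ Real.log (2 * x) := Real.log_le_log (by norm_num) (by linarith)
  obtain ⟨k, rfl⟩ := Nat.exists_eq_add_of_le' hn3
  have e2 : dn lam 2 = dn2 (k := k + 1) lam := TL.H850.dn_two (k := k + 1) lam
  have e1 : T4.ex lam 1 = lam 1 := exlt lam (by omega)
  have hLM : 1 ≤ M * L ^ m := one_le_mul_of_one_le_of_one_le hM1 (one_le_pow₀ hL1)
  have hpow : C1 * (M * L ^ m) ^ c1 = C1 * M ^ c1 * L ^ (m * c1) := by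
    rw [mul_pow, ← pow_mul]
    ring
  have hxl : Real.log (2 * b / g) = Real.log (2 * x) := by
    rw [hx, mul_div_assoc]
  refine hR a b k lam (M * L ^ m) hanti hsum hLM ?_ hab (b_le hL1 hCP.le hMP hmP ha0 hpoly)
    ?_ ?_ ?_ ?_
  · rw [hpow, hLe]
    exact ha1 a haN
  · rw [← hg]
    refine g_le hL1 hM1 hm1 hg0 hx ?_
    have := x_le hx1 (by linarith) hla
    linarith
  · rw [← e1]
    exact a_le hL1 hCU0 hMU hmU (Nat.cast_nonneg _) hl2 haw
  · rw [← e2]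
    exact c_le hL1 (by linarith) (by linarith) hK1 hk1 (Nat.cast_nonneg _) hnear
  · rw [← hg, ← e1, ← e2, hxl]
    exact num_rho hbR hgb hg0 hQ3 hwD (Nat.cast_nonneg _) hl2 hlog2 h

/-- **(U5)** -/
theorem rhoU (hR : RhoP) (hV : NearV) (hU : UniAll) (hP : PolyS) : RhoU := by
  obtain ⟨CP, cP, hCP, hP⟩ := hP
  obtain ⟨CU, cU, hCU, hU⟩ := hU
  obtain ⟨C1, c1, hC1, hR⟩ := hR
  obtain ⟨M, hM⟩ : ∃ M : ℝ, M = CP + 2 * CU + 1 := ⟨_, rfl⟩
  obtain ⟨m, hm⟩ : ∃ m : ℕ, m = cP + cU + 1 := ⟨_, rfl⟩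
  have hM1 : 1 ≤ M := by rw [hM]; linarith
  obtain ⟨K, hK⟩ : ∃ K : ℝ, K = C1 * M ^ c1 + 2 * CU := ⟨_, rfl⟩
  obtain ⟨k1, hk1⟩ : ∃ k1 : ℕ, k1 = m * c1 + cU := ⟨_, rfl⟩
  have hK0 : 0 < K := by rw [hK]; positivity
  obtain ⟨C2, a2, hC2, hV⟩ := hV K k1 hK0
  obtain ⟨a1, ha1⟩ := TL.H410.ev_log (C1 * M ^ c1) (m * c1)
  obtain ⟨A, hA⟩ : ∃ A : ℝ, A = ((a1 + a2 + 1 : ℕ) : ℝ) := ⟨_, rfl⟩
  have hA1 : 1 ≤ A := by
    rw [hA]
    exact_mod_cast (by omega : 1 ≤ a1 + a2 + 1)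
  have hlA : 0 ≤ Real.log A := Real.log_nonneg hA1
  refine ⟨2 * C2 + 2 * (4 * C2 + 4) ^ 4 + (C1 + 1) + (2 * Real.log A + 2), by positivity, ?_⟩
  intro a b hab n lam h
  obtain ⟨Q, hQ⟩ : ∃ Q : ℝ, Q = 2 * C2 + 2 * (4 * C2 + 4) ^ 4 + (C1 + 1) +
    (2 * Real.log A + 2) := ⟨_, rfl⟩
  rw [← hQ] at h
  have hp4 : 0 < (4 * C2 + 4) ^ 4 := by positivity
  have hQ1 : 2 * C2 ≤ Q := by rw [hQ]; linarith
  have hQ2 : 2 * (4 * C2 + 4) ^ 4 ≤ Q := by rw [hQ]; linarith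
  have hQ3 : C1 + 1 ≤ Q := by rw [hQ]; linarith
  have hQ4 : 2 * Real.log A + 2 ≤ Q := by rw [hQ]; linarith
  clear hQ hp4
  have hQ0 : 0 < Q := by linarith
  by_cases hz : plethMult a b n lam = 0
  · rw [hz]
    exact Nat.zero_le _
  obtain ⟨hanti, hsum, -⟩ := H530.zero_stmt a b n lam hz
  have habR : (a : ℝ) < b := by exact_mod_cast hab
  have ha0 : (0 : ℝ) ≤ a := Nat.cast_nonneg a
  have hbR : (0 : ℝ) < b := by linarith
  obtain ⟨g, hg⟩ : ∃ g : ℝ, g = (b : ℝ) - a := ⟨_, rfl⟩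
  have hg0 : 0 < g := by rw [hg]; linarith
  have hgb : g ≤ b := by rw [hg]; linarith
  rw [← hg] at h
  obtain ⟨x, hx⟩ : ∃ x : ℝ, x = (b : ℝ) / g := ⟨_, rfl⟩
  have hx1 : 1 ≤ x := by rw [hx, one_le_div hg0]; exact hgb
  have hxl : Real.log (2 * b / g) = Real.log (2 * x) := by
    rw [hx, mul_div_assoc]
  have hhalf := half_le_xlog hx1
  have hlog2 : Real.log 2 ≤ Real.log (2 * x) := Real.log_le_log (by norm_num) (by linarith)
  have hhl := half_log_two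
  -- divide by `g`
  have h1 : Q * (x * Real.log (2 * x)) ≤
      Real.log ((dn lam 1 : ℝ) * dn lam 2 / (b : ℝ) ^ 3) := by
    have h2 : Q * b * Real.log (2 * b / g) = g * (Q * (x * Real.log (2 * x))) := by
      rw [hxl, hx]
      field_simp
    rw [h2] at h
    exact le_of_mul_le_mul_left h hg0
  have hpos : 0 < Real.log ((dn lam 1 : ℝ) * dn lam 2 / (b : ℝ) ^ 3) := by
    refine lt_of_lt_of_le ?_ h1
    have : 0 < x * Real.log (2 * x) := by linarith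
    positivity
  have haN : 0 < a := by
    rcases Nat.eq_zero_or_pos a with h2 | h2
    · exfalso
      have h3 : dn lam 1 ≤ dn lam 0 := dn_anti lam (by omega)
      rw [dn_zero, hsum, h2, Nat.zero_mul] at h3
      rw [show dn lam 1 = 0 by omega, Nat.cast_zero, zero_mul, zero_div, Real.log_zero] at hpos
      exact absurd hpos (lt_irrefl _)
    · exact h2
  have haR : (0 : ℝ) < a := by exact_mod_cast haN
  have hwab : (dn lam 1 : ℝ) ≤ a * b := by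
    have h3 : dn lam 1 ≤ dn lam 0 := dn_anti lam (by omega)
    rw [dn_zero, hsum] at h3
    exact_mod_cast h3
  have hDab : (dn lam 2 : ℝ) ≤ a * b := by
    have h3 : dn lam 2 ≤ dn lam 0 := dn_anti lam (by omega)
    rw [dn_zero, hsum] at h3
    exact_mod_cast h3
  obtain ⟨hwD, hla⟩ := log_rho haR hbR habR.le (Nat.cast_nonneg _) (Nat.cast_nonneg _) hwab hDab
    hpos
  have h4 := h1.trans hla
  -- `a` is large
  have hAa : A < a := by
    by_contra hcon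
    push Not at hcon
    have h5 : Real.log a ≤ Real.log A := Real.log_le_log haR hcon
    have h6 : Q * (1 / 2) ≤ Q * (x * Real.log (2 * x)) := mul_le_mul_of_nonneg_left hhalf hQ0.le
    linarith
  have hAN : a1 + a2 + 1 < a := by
    rw [hA] at hAa
    exact_mod_cast hAa
  obtain ⟨L, hLe⟩ : ∃ L : ℝ, L = 1 + Real.log a := ⟨_, rfl⟩
  have hL1 : 1 ≤ L := by
    rw [hLe]
    linarith [Real.log_natCast_nonneg a]
  by_cases hpoly : CP * a * (1 + Real.log a) ^ cP ≤ b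
  · exact hP a b hpoly n lam
  by_cases huni : CU * (1 + Real.log a) ^ cU * (dn lam 1 : ℝ) ≤ (b : ℝ) ^ 2
  · exact hU a b hab.le n lam huni
  by_cases hnear : (a : ℝ) ^ 2 ≤ K * (1 + Real.log a) ^ k1 * (dn lam 2 : ℝ)
  · refine hV a b n lam (by omega) ?_ hnear
    rw [← hg]
    have h5 := num_near hC2 hx1 hQ1 hQ2 h4
    have h6 : C2 * b * Real.log (2 + Real.log a) =
        g * (C2 * x * Real.log (2 + Real.log a)) := by
      rw [hx]
      field_simp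
    rw [h6]
    exact mul_le_mul_of_nonneg_left h5 hg0.le
  rw [← hLe] at hpoly huni hnear
  push Not at hpoly huni hnear
  rw [hxl] at h
  exact window hCP hCU hC1 hR hM1 (by rw [hM]; linarith) (by rw [hM]; linarith) (by omega)
    (by omega) (by omega)
    (by rw [hK]; exact le_add_of_nonneg_left (by positivity))
    (by rw [hK]; linarith) (by omega) (by omega) ha1 hQ3 hanti hsum (by omega) hab hLe hL1 hg
    hg0 hx hx1 h4 h hwD hpoly huni hnear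

end Vale.Agent.P181.H382.H640
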